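import Vale.Agent.P204.Final

/-!
P204: the tamed-to-compatible conjecture holds for every smooth almost complex structure on the
four-torus that depends on one coordinate only (is invariant under a three-torus of translations).
-/

namespace Vale.Agent.Results.P204.TorusOneVariable

open Vale.Agent.P204

/-- Let `J` be a smooth almost complex structure on `T⁴ = ℝ⁴ / ℤ⁴` whose matrix depends only on the
coordinate `x₀`. If some closed two-form tames `J`, then some closed two-form that tames `J` is
also `J`-invariant, that is, some symplectic form is compatible with `J`. The taming form is
arbitrary: it need not be invariant under translations. -/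
theorem result (J : V → Matrix (Fin 4) (Fin 4) ℝ) (hJ : IsAlmostComplex J)
    (hinv : ∀ x y : V, x 0 = y 0 → J x = J y)
    (htame : ∃ w, IsClosedForm w ∧ Tames w J) :
    ∃ w, IsClosedForm w ∧ Tames w J ∧ IsInvariant w J := by
  obtain ⟨w, hw, hT⟩ := htame
  exact main hJ hinv hw hT

end Vale.Agent.Results.P204.TorusOneVariable
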